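import Vale.Agent.P204.Bdl.B8
open Vale.Agent.P204

/-- Every almost complex structure on a closed four-manifold which is tamed by a symplectic form
is compatible with a symplectic form. -/
theorem Vale.Agent.Results.P204.Donaldson.result.{u} : DC.Donaldson.{u} :=
  DC.main GX.sysStatementB
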